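import Vale.Agent.P013.H499.Main

/-!
# P013: residue classes with pairwise coprime moduli, rough integers, short gaps (helper139)
-/

namespace Vale.Agent.P013.H139

open Finset Real Vale.Agent.P013.J Vale.Agent.P013.H499

/-- Pairwise coprime moduli reduce to distinct primes. -/
theorem reduce {M : Finset ℕ} (h2 : ∀ m ∈ M, 2 ≤ m) (hc : (M : Set ℕ).Pairwise Nat.Coprime)
    (a : ℕ → ℤ) : ∃ P : Finset ℕ, (∀ p ∈ P, p.Prime) ∧ P.card ≤ M.card ∧ ∃ b : ℕ → ℤ,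
      ∀ t : ℤ, (∀ p ∈ P, ¬ (p : ℤ) ∣ t - b p) → ∀ m ∈ M, ¬ (m : ℤ) ∣ t - a m := by
  classical
  have hne : ∀ m ∈ M, m ≠ 1 := fun m hm => by
    have := h2 m hm
    omega
  refine ⟨M.image Nat.minFac, ?_, Finset.card_image_le, ?_⟩
  · intro p hp
    obtain ⟨m, hm, rfl⟩ := Finset.mem_image.1 hp
    exact Nat.minFac_prime (hne m hm)
  · have hb : ∀ p : ℕ, ∃ r : ℤ, ∀ m ∈ M, m.minFac = p → r = a m := by
      intro p
      by_cases h : ∃ m ∈ M, m.minFac = p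
      · obtain ⟨m, hm, hmp⟩ := h
        refine ⟨a m, fun m' hm' hmp' => ?_⟩
        by_cases he : m = m'
        · rw [he]
        · exfalso
          have hco := hc hm hm' he
          have hp : p.Prime := by rw [← hmp]; exact Nat.minFac_prime (hne m hm)
          exact Nat.not_coprime_of_dvd_of_dvd hp.one_lt (hmp ▸ Nat.minFac_dvd m)
            (hmp' ▸ Nat.minFac_dvd m') hco
      · exact ⟨0, fun m hm hmp => (h ⟨m, hm, hmp⟩).elim⟩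
    choose b hb using hb
    refine ⟨b, fun t ht m hm hd => ?_⟩
    refine ht m.minFac (Finset.mem_image_of_mem _ hm) ?_
    rw [hb m.minFac m hm rfl]
    exact (Int.natCast_dvd_natCast.2 (Nat.minFac_dvd m)).trans hd

/-- Two elements of a large finite set of integers in an interval are close. -/
theorem close_pair {S : Set ℤ} (x : ℤ) (y g : ℕ) (hg : 0 < g) (hS : ∀ t ∈ S, x < t ∧ t ≤ x + y)
    (hcard : y / g + 1 < S.ncard) : ∃ t ∈ S, ∃ t' ∈ S, t < t' ∧ t' - t ≤ g := by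
  classical
  have hfin : S.Finite := (Set.finite_Ioc x (x + y)).subset fun t ht => hS t ht
  obtain ⟨T, rfl⟩ : ∃ T : Finset ℤ, (T : Set ℤ) = S := ⟨hfin.toFinset, hfin.coe_toFinset⟩
  rw [Set.ncard_coe_finset] at hcard
  have hmap : ∀ t ∈ T, ((t - x - 1) / (g : ℤ)).toNat ∈ Finset.range (y / g + 1) := by
    intro t ht
    obtain ⟨h1, h2⟩ := hS t ht
    rw [Finset.mem_range, Nat.lt_succ_iff]
    have h3 : (t - x - 1) / (g : ℤ) ≤ ((y / g : ℕ) : ℤ) := by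
      rw [Int.natCast_div]
      exact Int.ediv_le_ediv (by exact_mod_cast hg) (by omega)
    exact Int.toNat_le.2 h3
  obtain ⟨t, ht, t', ht', hne, he⟩ := Finset.exists_ne_map_eq_of_card_lt_of_maps_to
    (by rwa [Finset.card_range]) hmap
  have key : ∀ u ∈ T, ∀ v ∈ T, u < v →
      ((u - x - 1) / (g : ℤ)).toNat = ((v - x - 1) / (g : ℤ)).toNat → v - u ≤ g := by
    intro u hu v hv _ h
    obtain ⟨h1, h2⟩ := hS u hu
    obtain ⟨h3, h4⟩ := hS v hv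
    have hg' : (0 : ℤ) < g := by exact_mod_cast hg
    have e1 : 0 ≤ (u - x - 1) / (g : ℤ) := Int.ediv_nonneg (by omega) hg'.le
    have e2 : 0 ≤ (v - x - 1) / (g : ℤ) := Int.ediv_nonneg (by omega) hg'.le
    have e3 : (u - x - 1) / (g : ℤ) = (v - x - 1) / (g : ℤ) := by omega
    have e4 := Int.mul_ediv_self_le (x := u - x - 1) hg'.ne'
    have e5 := Int.lt_mul_ediv_self_add (x := v - x - 1) hg'
    rw [← e3] at e5
    omega
  rcases lt_or_gt_of_ne hne with h | h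
  · exact ⟨t, ht, t', ht', h, key t ht t' ht' h he⟩
  · exact ⟨t', ht', t, ht, h, key t' ht' t ht h he.symm⟩

/-- `(log k)^B ≤ C k` -/
theorem log_pow_le (B : ℝ) (hB : 0 < B) : ∃ C₀ : ℝ, 1 ≤ C₀ ∧ ∀ k : ℕ, 2 ≤ k →
    (log (k : ℝ)) ^ B ≤ C₀ * k :=
  ⟨max 1 (B ^ B), le_max_left _ _, fun k hk => (fin_log_pow B hB k hk).trans
    (mul_le_mul_of_nonneg_right (le_max_right _ _) (Nat.cast_nonneg k))⟩

/-- **Counting form and short gaps**, for a set of primes. -/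
theorem gaps (h : TStarStmt) (B : ℝ) (hB : 0 < B) : ∃ C c D : ℝ, 0 < C ∧ 0 < c ∧ 0 < D ∧
    ∀ k : ℕ, 2 ≤ k → ∀ P : Finset ℕ, (∀ p ∈ P, p.Prime) → P.card ≤ k → ∀ (a : ℕ → ℤ) (x : ℤ),
      (∀ y : ℕ, C * (k : ℝ) ^ 2 / (log k) ^ B ≤ y →
        c * y / (log y) ^ 2 ≤
          {t : ℤ | x < t ∧ t ≤ x + y ∧ ∀ p ∈ P, ¬ (p : ℤ) ∣ t - a p}.ncard) ∧
      ∃ t t' : ℤ, x < t ∧ t < t' ∧ (t' : ℝ) ≤ x + C * (k : ℝ) ^ 2 / (log k) ^ B ∧
        ((t' - t : ℤ) : ℝ) ≤ D * (log k) ^ 2 ∧ (∀ p ∈ P, ¬ (p : ℤ) ∣ t - a p) ∧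
        ∀ p ∈ P, ¬ (p : ℤ) ∣ t' - a p := by
  obtain ⟨C₁, c, hC₁, hc, H⟩ := kform h B hB
  obtain ⟨C₀, hC₀, hlog⟩ := log_pow_le B hB
  -- a threshold beyond which `y / (log y)^2` is large
  obtain ⟨Y, hY⟩ : ∃ Y : ℕ, ∀ y : ℕ, Y ≤ y → 1 ≤ log (y : ℝ) ∧ 4 * (log (y : ℝ)) ^ 2 ≤ c * y := by
    obtain ⟨Y, hY⟩ := growth 0 (min c 1) (lt_min hc one_pos)
    refine ⟨max Y 1, fun y hy => ?_⟩
    obtain ⟨a1, a2, a3⟩ := hY y ((le_max_left _ _).trans hy)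
    have hy1 : (1 : ℝ) ≤ y := by exact_mod_cast (le_max_right Y 1).trans hy
    refine ⟨a1, ?_⟩
    rw [zero_add, Real.rpow_ofNat] at a3
    have a4 : √(y : ℝ) ≤ y := by
      rw [Real.sqrt_le_left (by linarith)]
      nlinarith
    have a5 : min c 1 ≤ c := min_le_left _ _
    have a6 : 0 ≤ √(y : ℝ) := Real.sqrt_nonneg _
    have a7 : min c 1 / 4 * √(y : ℝ) ≤ c / 4 * y := by gcongr
    linarith
  set C : ℝ := C₁ + C₀ * (Y + 2) + 1 with hC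
  have hC0 : 0 < C := by positivity
  have hl2 : 0 < log 2 := Real.log_pos one_lt_two
  -- `log y ≤ D₀ log k` for `y ≤ C k² / (log k)^B`
  set D₀ : ℝ := 2 + |log (C / (log 2) ^ B)| / log 2 with hD₀
  have hD₀0 : 0 < D₀ := by positivity
  refine ⟨C, c, (4 / c + 1) * D₀ ^ 2, hC0, hc, by positivity, fun k hk P hP hPk a x => ?_⟩
  have hk0 : (0 : ℝ) < k := by exact_mod_cast (by omega : 0 < k)
  have hk2 : (2 : ℝ) ≤ k := by exact_mod_cast hk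
  have hlk : log 2 ≤ log (k : ℝ) := Real.log_le_log two_pos hk2
  have hlk0 : 0 < log (k : ℝ) := hl2.trans_le hlk
  have hLB : 0 < (log (k : ℝ)) ^ B := Real.rpow_pos_of_pos hlk0 B
  have hmain : ∀ y : ℕ, C * (k : ℝ) ^ 2 / (log k) ^ B ≤ y → c * y / (log y) ^ 2 ≤
      {t : ℤ | x < t ∧ t ≤ x + y ∧ ∀ p ∈ P, ¬ (p : ℤ) ∣ t - a p}.ncard := by
    intro y hy
    refine H k hk P hP hPk a x y (le_trans ?_ hy)
    have : C₁ ≤ C := by
      rw [hC]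
      have : 0 ≤ C₀ * ((Y : ℝ) + 2) := by positivity
      linarith
    gcongr
  refine ⟨hmain, ?_⟩
  set L : ℝ := C * (k : ℝ) ^ 2 / (log k) ^ B with hL
  have hkL : (1 : ℝ) / C₀ ≤ (k : ℝ) ^ 2 / (log k) ^ B := by
    rw [div_le_div_iff₀ (by linarith) hLB]
    have := hlog k hk
    nlinarith
  have hLY : (Y : ℝ) + 2 ≤ L - C₁ * (k : ℝ) ^ 2 / (log k) ^ B := by
    have h1 : L - C₁ * (k : ℝ) ^ 2 / (log k) ^ B
        = C₀ * (Y + 2) * ((k : ℝ) ^ 2 / (log k) ^ B) + (k : ℝ) ^ 2 / (log k) ^ B := by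
      rw [hL, hC]; ring
    have h2 : 0 ≤ (k : ℝ) ^ 2 / (log k) ^ B := by positivity
    have h3 : (Y : ℝ) + 2 ≤ C₀ * (Y + 2) * ((k : ℝ) ^ 2 / (log k) ^ B) := by
      calc (Y : ℝ) + 2 = C₀ * (Y + 2) * (1 / C₀) := by
            have : C₀ ≠ 0 := by linarith
            field_simp
        _ ≤ _ := by gcongr
    linarith
  have hC₁L : 0 ≤ C₁ * (k : ℝ) ^ 2 / (log k) ^ B := by positivity
  have hL0 : 0 ≤ L := by positivity
  set y : ℕ := ⌊L⌋₊ with hy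
  have hyL : (y : ℝ) ≤ L := Nat.floor_le hL0
  have hLy : L < y + 1 := Nat.lt_floor_add_one L
  have hyY : Y ≤ y := by
    have : (Y : ℝ) ≤ y := by linarith
    exact_mod_cast this
  have hyC : C₁ * (k : ℝ) ^ 2 / (log k) ^ B ≤ y := by
    have : (0 : ℝ) ≤ Y := Nat.cast_nonneg Y
    linarith
  obtain ⟨hly, hcy⟩ := hY y hyY
  have hN := H k hk P hP hPk a x y hyC
  have hly2 : 0 < (log (y : ℝ)) ^ 2 := by positivity
  have hN4 : (4 : ℝ) ≤ c * y / (log y) ^ 2 := by rwa [le_div_iff₀ hly2]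
  set g : ℕ := ⌈4 / c * (log (y : ℝ)) ^ 2⌉₊ with hg
  have hgl : 4 / c * (log (y : ℝ)) ^ 2 ≤ g := Nat.le_ceil _
  have hg0 : 0 < g := Nat.ceil_pos.2 (by positivity)
  have hgR : (0 : ℝ) < g := by exact_mod_cast hg0
  have hgu : (g : ℝ) < 4 / c * (log (y : ℝ)) ^ 2 + 1 := Nat.ceil_lt_add_one (by positivity)
  have hyg : ((y / g : ℕ) : ℝ) ≤ c * y / (log y) ^ 2 / 4 := by
    refine Nat.cast_div_le.trans ?_
    rw [div_le_iff₀ hgR]
    calc (y : ℝ) = c * y / (log y) ^ 2 / 4 * (4 / c * (log (y : ℝ)) ^ 2) := by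
          field_simp
      _ ≤ _ := by gcongr
  have hcard : y / g + 1 < unsieved P a x y := by
    have : ((y / g : ℕ) : ℝ) + 1 < (unsieved P a x y : ℝ) := by linarith
    exact_mod_cast this
  obtain ⟨t, ht, t', ht', htt, hgap⟩ := close_pair (S := {t : ℤ | x < t ∧ t ≤ x + y ∧
    ∀ p ∈ P, ¬ (p : ℤ) ∣ t - a p}) x y g hg0 (fun t ht => ⟨ht.1, ht.2.1⟩) hcard
  refine ⟨t, t', ht.1, htt, ?_, ?_, ht.2.2, ht'.2.2⟩
  · have : (t' : ℝ) ≤ x + y := by exact_mod_cast ht'.2.1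
    linarith
  · have hgap' : ((t' - t : ℤ) : ℝ) ≤ g := by exact_mod_cast hgap
    have hly' : log (y : ℝ) ≤ D₀ * log k := by
      have hy1 : (0 : ℝ) < y := by
        have : (0 : ℝ) ≤ Y := Nat.cast_nonneg Y
        linarith
      have hLu : L ≤ C / (log 2) ^ B * (k : ℝ) ^ 2 := by
        rw [hL, div_mul_eq_mul_div]
        gcongr
      have h1 : log (y : ℝ) ≤ log (C / (log 2) ^ B * (k : ℝ) ^ 2) :=
        Real.log_le_log hy1 (hyL.trans hLu)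
      rw [Real.log_mul (by positivity) (by positivity), Real.log_pow] at h1
      have h2 : log (C / (log 2) ^ B) ≤ |log (C / (log 2) ^ B)| / log 2 * log k := by
        calc log (C / (log 2) ^ B) ≤ |log (C / (log 2) ^ B)| := le_abs_self _
          _ = |log (C / (log 2) ^ B)| / log 2 * log 2 := by field_simp
          _ ≤ _ := by gcongr
      rw [hD₀]
      push_cast at h1
      linarith
    have h1 : (1 : ℝ) ≤ (log (y : ℝ)) ^ 2 := one_le_pow₀ hly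
    calc ((t' - t : ℤ) : ℝ) ≤ g := hgap'
      _ ≤ (4 / c + 1) * (log (y : ℝ)) ^ 2 := by linarith
      _ ≤ (4 / c + 1) * (D₀ * log k) ^ 2 := by gcongr
      _ = _ := by ring

/-- The same for pairwise coprime moduli. -/
theorem gaps_coprime (h : TStarStmt) (B : ℝ) (hB : 0 < B) : ∃ C c D : ℝ, 0 < C ∧ 0 < c ∧ 0 < D ∧
    ∀ k : ℕ, 2 ≤ k → ∀ M : Finset ℕ, M.card ≤ k → (∀ m ∈ M, 2 ≤ m) →
      (M : Set ℕ).Pairwise Nat.Coprime → ∀ (a : ℕ → ℤ) (x : ℤ),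
      (∀ y : ℕ, C * (k : ℝ) ^ 2 / (log k) ^ B ≤ y →
        c * y / (log y) ^ 2 ≤
          {t : ℤ | x < t ∧ t ≤ x + y ∧ ∀ m ∈ M, ¬ (m : ℤ) ∣ t - a m}.ncard) ∧
      ∃ t t' : ℤ, x < t ∧ t < t' ∧ (t' : ℝ) ≤ x + C * (k : ℝ) ^ 2 / (log k) ^ B ∧
        ((t' - t : ℤ) : ℝ) ≤ D * (log k) ^ 2 ∧ (∀ m ∈ M, ¬ (m : ℤ) ∣ t - a m) ∧
        ∀ m ∈ M, ¬ (m : ℤ) ∣ t' - a m := by
  obtain ⟨C, c, D, hC, hc, hD, H⟩ := gaps h B hB
  refine ⟨C, c, D, hC, hc, hD, fun k hk M hMk hM2 hMc a x => ?_⟩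
  obtain ⟨P, hP, hPM, b, hb⟩ := reduce hM2 hMc a
  obtain ⟨H1, t, t', h1, h2, h3, h4, h5, h6⟩ := H k hk P hP (hPM.trans hMk) b x
  refine ⟨fun y hy => (H1 y hy).trans (Nat.cast_le.2 (Set.ncard_le_ncard ?_ ?_)),
    t, t', h1, h2, h3, h4, hb t h5, hb t' h6⟩
  · exact fun u hu => ⟨hu.1, hu.2.1, hb u hu.2.2⟩
  · exact (Set.finite_Ioc x (x + y)).subset fun u hu => ⟨hu.1, hu.2.1⟩

/-- The same for integers without small prime factors. -/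
theorem gaps_rough (h : TStarStmt) (B : ℝ) (hB : 0 < B) : ∃ C c D : ℝ, 0 < C ∧ 0 < c ∧ 0 < D ∧
    ∀ z : ℕ, 2 ≤ z → ∀ x : ℤ,
      (∀ y : ℕ, C * (z : ℝ) ^ 2 / (log z) ^ B ≤ y →
        c * y / (log y) ^ 2 ≤
          {t : ℤ | x < t ∧ t ≤ x + y ∧ ∀ p : ℕ, p.Prime → (p : ℤ) ∣ t → z < p}.ncard) ∧
      ∃ t t' : ℤ, x < t ∧ t < t' ∧ (t' : ℝ) ≤ x + C * (z : ℝ) ^ 2 / (log z) ^ B ∧
        ((t' - t : ℤ) : ℝ) ≤ D * (log z) ^ 2 ∧ (∀ p : ℕ, p.Prime → (p : ℤ) ∣ t → z < p) ∧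
        ∀ p : ℕ, p.Prime → (p : ℤ) ∣ t' → z < p := by
  obtain ⟨C, c, D, hC, hc, hD, H⟩ := gaps h B hB
  refine ⟨C, c, D, hC, hc, hD, fun z hz x => ?_⟩
  have key : ∀ t : ℤ, (∀ p ∈ (Finset.Ioc 0 z).filter Nat.Prime, ¬ (p : ℤ) ∣ t - (0 : ℤ)) ↔
      ∀ p : ℕ, p.Prime → (p : ℤ) ∣ t → z < p := by
    intro t
    simp only [Finset.mem_filter, Finset.mem_Ioc, sub_zero]
    constructor
    · intro h p hp hd
      by_contra hlt
      exact h p ⟨⟨hp.pos, not_lt.1 hlt⟩, hp⟩ hd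
    · rintro h p ⟨⟨_, hpz⟩, hp⟩ hd
      exact absurd (h p hp hd) (not_lt.2 hpz)
  obtain ⟨H1, t, t', h1, h2, h3, h4, h5, h6⟩ := H z hz ((Finset.Ioc 0 z).filter Nat.Prime)
    (fun p hp => (Finset.mem_filter.1 hp).2)
    ((Finset.card_filter_le _ _).trans (by rw [Nat.card_Ioc]; omega)) (fun _ => 0) x
  refine ⟨fun y hy => (H1 y hy).trans (Nat.cast_le.2 (Set.ncard_le_ncard ?_ ?_)),
    t, t', h1, h2, h3, h4, (key t).1 h5, (key t').1 h6⟩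
  · exact fun u hu => ⟨hu.1, hu.2.1, (key u).1 hu.2.2⟩
  · exact (Set.finite_Ioc x (x + y)).subset fun u hu => ⟨hu.1, hu.2.1⟩

end Vale.Agent.P013.H139
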